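import Vale.Agent.P140.Bd3.B21

open MeasureTheory
open Vale.Agent.P140.Stt

namespace Vale.Agent.Results.P140.NonUnique

/-- some datum has two different renormalized entropy solutions -/
def Nonuniqueness {E X : Type} [NormedAddCommGroup E] [InnerProductSpace ℝ E] [MeasureSpace E]
    [MeasureSpace X] [AddCommGroup X] (π : E → X) : Prop :=
  ∃ (F0 : X × E → ℝ) (F G : ℝ → X × E → ℝ), IsSol π F0 F ∧ IsSol π F0 G ∧
    (∃ t : ℝ, 0 ≤ t ∧ ¬ F t =ᵐ[volume] G t) ∧
    ¬ ∀ᵐ q : ℝ × X × E, 0 ≤ q.1 → F q.1 q.2 = G q.1 q.2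

/-- the canonical projection `ℝ³ → ℝ³ / ℤ³` -/
def proj (x : EuclideanSpace ℝ (Fin 3)) : UnitAddTorus (Fin 3) := fun i => (x i : UnitAddCircle)

/-- Some datum has two different renormalized entropy solutions. -/
theorem result : Nonuniqueness proj :=
  Vale.Agent.P140.NU.disproof fun _ _ => rfl

end Vale.Agent.Results.P140.NonUnique
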